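import Vale.Agent.P157.Parisi.Statements
import Vale.Agent.P168.Upper.Nested

/-!
Tilts by independent families of marks factor.
-/

noncomputable section

set_option linter.unusedVariables false

open MeasureTheory ProbabilityTheory Filter Topology
open scoped BigOperators

namespace Vale.Agent.P157.Parisi

open Vale.Agent.P168 (genNested Shape shapeMarks)
open Vale.Agent.P168
open Vale.Agent.P168.Cascade (Exps Bdd IsTree cond logW tableLaw cond_zero cond_mem measurable_logW
  measurable_shapeMarks genNested_mem)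

section Pair

variable {β γ : Type} [MeasurableSpace β] [MeasurableSpace γ] (ν : Measure β) (μ : Measure γ)
  [IsProbabilityMeasure ν] [IsProbabilityMeasure μ]

lemma cond_prod : ∀ {r : ℕ} (m : Fin r → ℝ) (Y : (Fin r → β) → ℝ) (Z : (Fin r → γ) → ℝ),
    (∀ ω, 0 ≤ Y ω) → (∀ η, 0 ≤ Z η) → ∀ (p : ℕ) (θ : Fin r → β × γ),
      cond (ν.prod μ) m (fun η => Y (fun i => (η i).1) * Z (fun i => (η i).2)) p θ =
        cond ν m Y p (fun i => (θ i).1) * cond μ m Z p (fun i => (θ i).2) := by
  intro r
  induction r with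
  | zero =>
    intro m Y Z _ _ p θ
    show Y _ * Z _ = Y _ * Z _
    congr 2 <;> exact funext fun i => i.elim0
  | succ r ih =>
    intro m Y Z hY hZ p θ
    cases p with
    | zero => exact Upper.genNested_prod ν μ m Y Z hY hZ
    | succ p =>
      refine Eq.trans ?_ (ih (Fin.tail m) (fun ω => Y (Fin.cons (θ 0).1 ω))
        (fun ω => Z (Fin.cons (θ 0).2 ω)) (fun _ => hY _) (fun _ => hZ _) p (Fin.tail θ))
      show cond _ _ _ p _ = cond _ _ _ p _
      congr 1
      funext η
      show Y _ * Z _ = _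
      congr 2 <;> funext i <;> cases i using Fin.cases <;> simp

lemma logW_prod {r k : ℕ} {m : Fin r → ℝ} (hm : Exps m) {C : ℝ} {Y : (Fin r → β) → ℝ}
    {Z : (Fin r → γ) → ℝ} (hY : Bdd C Y) (hZ : Bdd C Z) (v : Shape r k)
    (ω : Fin r → Fin k → β × γ) :
    logW (ν.prod μ) m (fun η => Y (fun i => (η i).1) * Z (fun i => (η i).2)) v ω =
      logW ν m Y v (fun i a => (ω i a).1) + logW μ m Z v (fun i a => (ω i a).2) := by
  have h := cond_prod ν μ m Y Z (fun ω => (hY.gt_zero ω).le) (fun η => (hZ.gt_zero η).le)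
  have hy : ∀ p ρ, cond ν m Y p ρ ≠ 0 := fun p ρ =>
    ((inv_pos.2 hY.pos).trans_le (cond_mem ν hm hY p ρ).1).ne'
  have hz : ∀ p ρ, cond μ m Z p ρ ≠ 0 := fun p ρ =>
    ((inv_pos.2 hZ.pos).trans_le (cond_mem μ hm hZ p ρ).1).ne'
  have h1 : ∀ a, shapeMarks v (fun i a => (ω i a).1) a = fun i => (shapeMarks v ω a i).1 :=
    fun _ => rfl
  have h2 : ∀ a, shapeMarks v (fun i a => (ω i a).2) a = fun i => (shapeMarks v ω a i).2 :=
    fun _ => rfl
  simp only [logW, h, h1, h2, Real.log_mul (hy _ _) (hz _ _),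
    Real.log_mul (hY.gt_zero _).ne' (hZ.gt_zero _).ne', mul_sub, mul_add, Finset.sum_add_distrib,
    Finset.sum_sub_distrib]
  ring

end Pair

theorem tilt_factor : TiltFactorStmt := by
  intro β γ _ _ ν μ _ _ r k m hm C Y Z hY hZ g h hgm hhm hgb hhb v hv
  have hmp : MeasurePreserving
      (fun (z : (Fin r → Fin k → β) × (Fin r → Fin k → γ)) (i : Fin r) (a : Fin k) =>
        (z.1 i a, z.2 i a))
      ((tableLaw ν r k).prod (tableLaw μ r k)) (tableLaw (ν.prod μ) r k) :=
    (Upper.mp_pi (Upper.mp_zip (ι := Fin k) ν μ)).comp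
      (Upper.mp_zip (ι := Fin r) (Measure.pi fun _ : Fin k => ν) (Measure.pi fun _ : Fin k => μ))
  have hf : Measurable fun θ : Fin r → β × γ => fun i => (θ i).1 := by fun_prop
  have hs : Measurable fun θ : Fin r → β × γ => fun i => (θ i).2 := by fun_prop
  have hF : Measurable fun ω : Fin r → Fin k → β × γ =>
      Real.exp (logW (ν.prod μ) m (fun η => Y (fun i => (η i).1) * Z (fun i => (η i).2)) v ω) *
        ∏ a, (g a (fun i => (shapeMarks v ω a i).1) * h a (fun i => (shapeMarks v ω a i).2)) :=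
    ((measurable_logW (ν.prod μ) m (Y := fun η => Y (fun i => (η i).1) * Z (fun i => (η i).2))
      ((hY.meas.comp hf).mul (hZ.meas.comp hs)) v).exp).mul (Finset.measurable_prod _ fun a _ =>
        ((hgm a).comp (hf.comp (measurable_shapeMarks v a))).mul
          ((hhm a).comp (hs.comp (measurable_shapeMarks v a))))
  rw [← Upper.integral_mp hmp hF, ← integral_prod_mul]
  refine integral_congr_ae (Eventually.of_forall fun z => ?_)
  simp only [logW_prod ν μ hm hY hZ, Real.exp_add, Finset.prod_mul_distrib]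
  exact mul_mul_mul_comm _ _ _ _

section Family

variable {β : Type} [MeasurableSpace β] (ν : Measure β) [IsProbabilityMeasure ν] {ι : Type}
  [Fintype ι]

lemma genNested_pi : ∀ {r : ℕ} (m : Fin r → ℝ) (Y : ι → (Fin r → β) → ℝ), (∀ j ω, 0 ≤ Y j ω) →
    genNested (Measure.pi fun _ : ι => ν) m (fun η => ∏ j, Y j fun i => η i j) =
      ∏ j, genNested ν m (Y j) := by
  intro r
  induction r with
  | zero =>
    intro m Y _
    exact Finset.prod_congr rfl fun j _ => congrArg (Y j) (funext fun i => i.elim0)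
  | succ r ih =>
    intro m Y hY
    have hc : ∀ b : ι → β, genNested (Measure.pi fun _ : ι => ν) (Fin.tail m)
        (fun η => ∏ j, Y j fun i => (Fin.cons b η : Fin (r + 1) → ι → β) i j) =
        ∏ j, genNested ν (Fin.tail m) fun ω => Y j (Fin.cons (b j) ω) := fun b => by
      rw [← ih (Fin.tail m) (fun j ω => Y j (Fin.cons (b j) ω)) fun _ _ => hY _ _]
      congr 1
      funext η
      refine Finset.prod_congr rfl fun j _ => congrArg (Y j) (funext fun i => ?_)
      cases i using Fin.cases <;> simp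
    have hG : ∀ j b, 0 ≤ genNested ν (Fin.tail m) fun ω => Y j (Fin.cons b ω) :=
      fun j b => Upper.genNested_nonneg _ _ _ fun _ => hY _ _
    simp only [genNested, hc, ← Real.finsetProd_rpow _ _ fun j _ => hG j _]
    rw [integral_fintype_prod_eq_prod (μ := fun _ : ι => ν)
      (fun j b => genNested ν (Fin.tail m) (fun ω => Y j (Fin.cons b ω)) ^ m 0),
      Real.finsetProd_rpow _ _ fun j _ => integral_nonneg fun b => Real.rpow_nonneg (hG j b) _]

lemma cond_pi : ∀ {r : ℕ} (m : Fin r → ℝ) (Y : ι → (Fin r → β) → ℝ), (∀ j ω, 0 ≤ Y j ω) →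
    ∀ (p : ℕ) (θ : Fin r → ι → β),
      cond (Measure.pi fun _ : ι => ν) m (fun η => ∏ j, Y j fun i => η i j) p θ =
        ∏ j, cond ν m (Y j) p fun i => θ i j := by
  intro r
  induction r with
  | zero =>
    intro m Y _ p θ
    exact Finset.prod_congr rfl fun j _ => congrArg (Y j) (funext fun i => i.elim0)
  | succ r ih =>
    intro m Y hY p θ
    cases p with
    | zero => exact genNested_pi ν m Y hY
    | succ p =>
      refine Eq.trans ?_ (ih (Fin.tail m) (fun j ω => Y j (Fin.cons (θ 0 j) ω))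
        (fun _ _ => hY _ _) p (Fin.tail θ))
      show cond _ _ _ p _ = cond _ _ _ p _
      congr 1
      funext η
      refine Finset.prod_congr rfl fun j _ => congrArg (Y j) (funext fun i => ?_)
      cases i using Fin.cases <;> simp

lemma logW_pi {r n : ℕ} {m : Fin r → ℝ} (hm : Exps m) {C : ℝ} {Y : ι → (Fin r → β) → ℝ}
    (hY : ∀ j, Bdd C (Y j)) (v : Shape r n) (ω : Fin r → Fin n → ι → β) :
    logW (Measure.pi fun _ : ι => ν) m (fun η => ∏ j, Y j fun i => η i j) v ω =
      ∑ j, logW ν m (Y j) v fun i a => ω i a j := by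
  have h := cond_pi ν m Y fun j ω => ((hY j).gt_zero ω).le
  have hy : ∀ j p ρ, cond ν m (Y j) p ρ ≠ 0 := fun j p ρ =>
    ((inv_pos.2 (hY j).pos).trans_le (cond_mem ν hm (hY j) p ρ).1).ne'
  simp only [logW, h, Real.log_prod (fun j _ => hy j _ _),
    Real.log_prod (fun j _ => ((hY j).gt_zero _).ne')]
  rw [Finset.sum_sub_distrib]
  congr 1
  · simp only [← Finset.sum_sub_distrib, Finset.mul_sum]
    rw [Finset.sum_comm (s := (Finset.univ : Finset ι))]
    refine Finset.sum_congr rfl fun p _ => ?_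
    rw [Finset.sum_comm (s := (Finset.univ : Finset ι))]
    rfl
  · rw [Finset.sum_comm]
    rfl

lemma mp_table (r n k : ℕ) :
    MeasurePreserving (fun (y : Fin k → Fin r → Fin n → β) i a j => y j i a)
      (Measure.pi fun _ : Fin k => tableLaw ν r n)
      (tableLaw (Measure.pi fun _ : Fin k => ν) r n) :=
  (Upper.mp_pi (Upper.mp_flip (ι := Fin k) (κ := Fin n) ν)).comp
    (Upper.mp_flip (ι := Fin k) (κ := Fin r) (Measure.pi fun _ : Fin n => ν))

/-- Tilts by a family of independent marks factor. -/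
lemma tilt_family {r n k : ℕ} {m : Fin r → ℝ} (hm : Exps m) {C : ℝ}
    {Y : Fin k → (Fin r → β) → ℝ} (hY : ∀ j, Bdd C (Y j))
    {g : Fin k → Fin n → (Fin r → β) → ℝ} (hg : ∀ j a, Measurable (g j a)) (v : Shape r n) :
    ∫ ω : Fin r → Fin n → Fin k → β,
        Real.exp (logW (Measure.pi fun _ : Fin k => ν) m (fun η => ∏ j, Y j fun i => η i j) v ω) *
          ∏ a, ∏ j, g j a (fun i => shapeMarks v ω a i j)
        ∂tableLaw (Measure.pi fun _ : Fin k => ν) r n =
      ∏ j, ∫ ω, Real.exp (logW ν m (Y j) v ω) * ∏ a, g j a (shapeMarks v ω a)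
        ∂tableLaw ν r n := by
  have hp : ∀ j, Measurable fun η : Fin r → Fin k → β => fun i => η i j := fun j => by fun_prop
  have hF : Measurable fun ω : Fin r → Fin n → Fin k → β =>
      Real.exp (logW (Measure.pi fun _ : Fin k => ν) m (fun η => ∏ j, Y j fun i => η i j) v ω) *
          ∏ a, ∏ j, g j a (fun i => shapeMarks v ω a i j) :=
    (measurable_logW _ m (Finset.measurable_prod _ fun j _ => (hY j).meas.comp (hp j)) v).exp.mul
      (Finset.measurable_prod _ fun a _ => Finset.measurable_prod _ fun j _ =>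
        (hg j a).comp ((hp j).comp (measurable_shapeMarks v a)))
  rw [← Upper.integral_mp (mp_table ν r n k) hF,
    ← integral_fintype_prod_eq_prod (μ := fun _ : Fin k => tableLaw ν r n)
      (fun j ω => Real.exp (logW ν m (Y j) v ω) * ∏ a, g j a (shapeMarks v ω a))]
  refine integral_congr_ae (Eventually.of_forall fun y => ?_)
  simp only [logW_pi ν hm hY, Real.exp_sum, Finset.prod_mul_distrib]
  rw [Finset.prod_comm]
  rfl

end Family

end Vale.Agent.P157.Parisi

end
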