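import Vale.Agent.P157.Parisi.ModA.Expect
import Vale.Agent.P168.Cascade.MomentLimit

/-!
Tilted tree moments of observables of at most two replicas.
-/

noncomputable section

set_option linter.unusedVariables false
set_option linter.unusedSectionVars false

open MeasureTheory ProbabilityTheory Filter Topology
open scoped BigOperators

namespace Vale.Agent.P157.Parisi

open Vale.Agent.P168 (Shape shapeInit shapeMarks shapeRep)
open Vale.Agent.P168.Cascade

variable {β : Type} [MeasurableSpace β] (ν : Measure β) [IsProbabilityMeasure ν] {r : ℕ} {C : ℝ}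

/-- The tilted moment of the observables `g` on the tree `v`. -/
def treeW {k : ℕ} (m : Fin r → ℝ) (Y : (Fin r → β) → ℝ) (g : Fin k → (Fin r → β) → ℝ)
    (v : Shape r k) : ℝ :=
  ∫ ω, Real.exp (logW ν m Y v ω) * ∏ a, (Y (shapeMarks v ω a) * g a (shapeMarks v ω a))
    ∂tableLaw ν r k

lemma tilt_integral_obsv {m : Fin r → ℝ} (hm : Exps m) {Y h : (Fin r → β) → ℝ} (hY : Bdd C Y)
    (hh : Obsv h) (q : ℕ) (ρ : Fin r → β) (hq : q ≤ r) :
    ∫ τ, Real.exp (tiltLog ν m Y q (glue q ρ τ)) * (Y (glue q ρ τ) * h (glue q ρ τ))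
      ∂(Measure.pi fun _ => ν) = cexp ν m Y h q ρ := by
  obtain ⟨B, hB1, hB⟩ := hh.exists_one_le
  have hM : 0 < C * B := mul_pos hY.pos (zero_lt_one.trans_le hB1)
  have hs : ∀ ω, |(C * B)⁻¹ * (Y ω * h ω)| ≤ 1 := fun ω => by
    rw [abs_mul, abs_mul, abs_of_pos (inv_pos.2 hM), abs_of_pos (hY.gt_zero ω), inv_mul_le_one₀ hM]
    exact mul_le_mul (hY.mem ω).2 (hB ω) (abs_nonneg _) hY.pos.le
  have := tilt_integral ν hm hY ((hY.meas.mul hh.1).const_mul (C * B)⁻¹) hs q ρ hq
  simp only [Pi.mul_apply] at this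
  rw [condD_mul_const] at this
  simp only [mul_left_comm _ ((C * B)⁻¹), integral_const_mul] at this
  exact mul_left_cancel₀ (inv_ne_zero hM.ne') this

lemma measurable_term {k : ℕ} (m : Fin r → ℝ) {Y : (Fin r → β) → ℝ} (hY : Measurable Y)
    {g : Fin k → (Fin r → β) → ℝ} (hg : ∀ a, Measurable (g a)) (v : Shape r k) :
    Measurable fun ω => Real.exp (logW ν m Y v ω) *
      ∏ a, (Y (shapeMarks v ω a) * g a (shapeMarks v ω a)) :=
  (measurable_logW ν m hY v).exp.mul (Finset.measurable_prod _ fun a _ =>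
    (hY.comp (measurable_shapeMarks v a)).mul ((hg a).comp (measurable_shapeMarks v a)))

lemma exists_term_bound {k : ℕ} {m : Fin r → ℝ} (hm : Exps m) {Y : (Fin r → β) → ℝ} (hY : Bdd C Y)
    {g : Fin k → (Fin r → β) → ℝ} (hg : ∀ a, Obsv (g a)) (v : Shape r k) :
    ∃ M, ∀ ω, |Real.exp (logW ν m Y v ω) *
      ∏ a, (Y (shapeMarks v ω a) * g a (shapeMarks v ω a))| ≤ M := by
  choose B hB using fun a => (hg a).2
  refine ⟨Real.exp ((2 * r + 1) * k * |Real.log C|) * ∏ a, (C * B a), fun ω => ?_⟩
  rw [abs_mul, abs_of_pos (Real.exp_pos _), Finset.abs_prod]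
  refine mul_le_mul (Real.exp_le_exp.2 ((le_abs_self _).trans (abs_logW_le ν hm hY v ω)))
    (Finset.prod_le_prod (fun a _ => abs_nonneg _) fun a _ => ?_)
    (Finset.prod_nonneg fun a _ => abs_nonneg _) (Real.exp_pos _).le
  rw [abs_mul, abs_of_pos (hY.gt_zero _)]
  exact mul_le_mul (hY.mem _).2 (hB a _) (abs_nonneg _) hY.pos.le

/-- Removing the last replica. -/
lemma treeW_attach {k : ℕ} {v : Shape r k} (hv : IsTree v) {m : Fin r → ℝ} (hm : Exps m)
    {Y : (Fin r → β) → ℝ} (hY : Bdd C Y) {g : Fin (k + 1) → (Fin r → β) → ℝ}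
    (hg : ∀ a, Obsv (g a)) (q : Fin (r + 1)) (a : Fin k) :
    treeW ν m Y g (attach v q a) = treeW ν m Y
      (Function.update (fun b => g b.castSucc) a
        fun ρ => g a.castSucc ρ * cexp ν m Y (g (Fin.last k)) q.val ρ) v := by
  obtain ⟨M, hM⟩ := exists_term_bound ν hm hY hg (attach v q a)
  unfold treeW
  rw [integral_tab ν (measurable_term ν m hY.meas (fun b => (hg b).1) _) hM]
  refine integral_congr_ae (Eventually.of_forall fun ω => ?_)
  have he : ∀ τ, Real.exp (logW ν m Y (attach v q a) (tab ω τ)) *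
      ∏ b, (Y (shapeMarks (attach v q a) (tab ω τ) b) * g b (shapeMarks (attach v q a) (tab ω τ) b)) =
      (Real.exp (logW ν m Y v ω) *
          ∏ b : Fin k, (Y (shapeMarks v ω b) * g b.castSucc (shapeMarks v ω b))) *
        (Real.exp (tiltLog ν m Y q.val (glue q.val (shapeMarks v ω a) τ)) *
          (Y (glue q.val (shapeMarks v ω a) τ) *
            g (Fin.last k) (glue q.val (shapeMarks v ω a) τ))) := fun τ => by
    simp only [logW_attach ν hv, Fin.prod_univ_castSucc, marks_attach_old hv, marks_attach_new hv,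
      Real.exp_add]
    ring
  simp only [he]
  rw [integral_const_mul, tilt_integral_obsv ν hm hY (hg _) _ _ (Nat.le_of_lt_succ q.isLt),
    mul_assoc]
  congr 1
  rw [← Finset.prod_erase_mul _ _ (Finset.mem_univ a), ← Finset.prod_erase_mul _ _ (Finset.mem_univ a),
    mul_assoc]
  congr 1
  · refine Finset.prod_congr rfl fun b hb => ?_
    rw [Function.update_of_ne (Finset.ne_of_mem_erase hb)]
  · rw [Function.update_self]
    ring

/-- A single replica. -/
lemma treeW_one {v : Shape r 1} {m : Fin r → ℝ} (hm : Exps m) {Y : (Fin r → β) → ℝ}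
    (hY : Bdd C Y) {g : Fin 1 → (Fin r → β) → ℝ} (hg : ∀ a, Obsv (g a)) :
    treeW ν m Y g v = logD ν m Y fun ω => Y ω * g 0 ω := by
  have hrep : ∀ p a, shapeRep v p a = a := fun p a => Subsingleton.elim _ _
  have hmk : ∀ (ω : Fin r → Fin 1 → β) a, shapeMarks v ω a = fun i => ω i 0 := fun ω a =>
    funext fun i => congrArg (ω i) (Subsingleton.elim _ _)
  have hW : ∀ ω : Fin r → Fin 1 → β, logW ν m Y v ω = tiltLog ν m Y 0 (fun i => ω i 0) := fun ω => by
    simp [logW, tiltLog, reps, hrep, hmk ω]
  have hMP : MeasurePreserving (fun (ω : Fin r → Fin 1 → β) i => ω i 0) (tableLaw ν r 1)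
      (Measure.pi fun _ : Fin r => ν) :=
    measurePreserving_pi _ _ fun _ => measurePreserving_eval (fun _ : Fin 1 => ν) 0
  set F : (Fin r → β) → ℝ := fun τ => Real.exp (tiltLog ν m Y 0 τ) * (Y τ * g 0 τ)
  have hFm : Measurable F := (measurable_tiltLog ν m hY.meas 0).exp.mul (hY.meas.mul (hg 0).1)
  calc treeW ν m Y g v = ∫ ω, F (fun i => ω i 0) ∂tableLaw ν r 1 := by
        refine integral_congr_ae (Eventually.of_forall fun ω => ?_)
        show Real.exp _ * _ = _
        rw [hW, Fin.prod_univ_one, hmk]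
    _ = ∫ τ, F τ ∂(Measure.pi fun _ => ν) := by
      rw [← hMP.map_eq, integral_map hMP.measurable.aemeasurable hFm.aestronglyMeasurable]
    _ = _ := by
      obtain ⟨b⟩ := nonempty_of_isProbabilityMeasure ν
      rw [← cexp_zero ν m Y (g 0) (fun _ => b),
        ← tilt_integral_obsv ν hm hY (hg 0) 0 (fun _ => b) (Nat.zero_le r)]
      have : ∀ τ : Fin r → β, glue 0 (fun _ => b) τ = τ := fun τ => by funext p; simp [glue]
      simp only [this]
      rfl

lemma exists_eq_attach {k : ℕ} {v : Shape r (k + 2)} (hv : IsTree v) :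
    IsTree (shapeInit v) ∧ ∃ q a, v = attach (shapeInit v) q a := by
  have hi : IsTree (shapeInit v) :=
    ⟨fun a => hv.diag _, fun a b => hv.symm _ _, fun a b c => hv.ultra _ _ _⟩
  obtain ⟨a, -, ha⟩ := Finset.exists_max_image (Finset.univ : Finset (Fin (k + 1)))
    (fun l => v (Fin.last _) l.castSucc) Finset.univ_nonempty
  refine ⟨hi, v (Fin.last _) a.castSucc, a, attach_eq (hv.diag _) rfl fun l => ?_⟩
  have h1 : v (Fin.last _) l.castSucc = min (v (Fin.last _) a.castSucc) (shapeInit v a l) := by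
    refine le_antisymm (le_min (ha l (Finset.mem_univ _)) ?_) (hv.ultra _ _ _)
    have h := hv.ultra a.castSucc (Fin.last _) l.castSucc
    rw [hv.symm a.castSucc, min_eq_right (ha l (Finset.mem_univ _))] at h
    exact h
  exact ⟨h1, (hv.symm _ _).trans h1⟩

/-- An observable at one replica. -/
def atRep {k : ℕ} (a : Fin k) (h : (Fin r → β) → ℝ) (b : Fin k) (ρ : Fin r → β) : ℝ :=
  if b = a then h ρ else 1

lemma obsv_atRep {k : ℕ} (a : Fin k) {h : (Fin r → β) → ℝ} (hh : Obsv h) (b : Fin k) :
    Obsv (atRep a h b) := by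
  by_cases hb : b = a
  · have : atRep a h b = h := funext fun ρ => if_pos hb
    rw [this]; exact hh
  · have : atRep a h b = fun _ => 1 := funext fun ρ => if_neg hb
    rw [this]; exact obsv_one

lemma cexp_of_prefix {m : Fin r → ℝ} (hm : Exps m) {Y : (Fin r → β) → ℝ} (hY : Bdd C Y)
    (h : (Fin r → β) → ℝ) (p : ℕ) (ρ : Fin r → β)
    (hp : ∀ ω ω' : Fin r → β, (∀ i : Fin r, i.val < p → ω i = ω' i) → h ω = h ω') :
    cexp ν m Y h p ρ = h ρ := by
  have := cexp_mul ν m Y h (fun _ => 1) p ρ hp
  simpa [cexp_const ν hm hY] using this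

lemma cexp_last {m : Fin r → ℝ} (hm : Exps m) {Y : (Fin r → β) → ℝ} (hY : Bdd C Y)
    (h : (Fin r → β) → ℝ) (ρ : Fin r → β) : cexp ν m Y h r ρ = h ρ :=
  cexp_of_prefix ν hm hY h r ρ fun ω ω' hω => congrArg h (funext fun i => hω i i.isLt)

lemma logD_tower {m : Fin r → ℝ} (hm : Exps m) {Y : (Fin r → β) → ℝ} (hY : Bdd C Y)
    (h : (Fin r → β) → ℝ) (q : ℕ) :
    (logD ν m Y fun ω => Y ω * cexp ν m Y h q ω) = logD ν m Y fun ω => Y ω * h ω := by
  obtain ⟨b⟩ := nonempty_of_isProbabilityMeasure ν
  simpa [cexp_zero] using cexp_tower ν hm hY h 0 q (fun _ => b) (Nat.zero_le q)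

/-- Two observables see only the meeting depth of their replicas. -/
theorem treeW_pair {m : Fin r → ℝ} (hm : Exps m) {Y : (Fin r → β) → ℝ} (hY : Bdd C Y) :
    ∀ {k : ℕ} {v : Shape r k}, IsTree v → ∀ (a b : Fin k) {h h' : (Fin r → β) → ℝ},
      Obsv h → Obsv h' → treeW ν m Y (fun c ρ => atRep a h c ρ * atRep b h' c ρ) v =
        logD ν m Y fun ω => Y ω * (cexp ν m Y h (v a b).val ω * cexp ν m Y h' (v a b).val ω) := by
  intro k
  induction k with
  | zero => exact fun _ a => a.elim0
  | succ k ih =>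
    intro v hv a b h h' hh hh'
    have hobs : ∀ {k : ℕ} (a b : Fin k) {h h' : (Fin r → β) → ℝ}, Obsv h → Obsv h' →
        ∀ c, Obsv fun ρ => atRep a h c ρ * atRep b h' c ρ :=
      fun a b _ _ hh hh' c => (obsv_atRep a hh c).mul (obsv_atRep b hh' c)
    rcases k with _ | k
    · rw [treeW_one ν hm hY (hobs a b hh hh')]
      have e : ∀ c : Fin 1, c = 0 := fun c => Subsingleton.elim _ _
      simp [e a, e b, atRep, hv.diag, cexp_last ν hm hY]
    obtain ⟨hi, q, a', he⟩ := exists_eq_attach hv
    have hdiag := hi.diag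
    generalize hw : shapeInit v = w at hi he hdiag
    subst he
    rw [treeW_attach ν hi hm hY (hobs a b hh hh')]
    have hlast : ∀ {H : (Fin r → β) → ℝ}, Obsv H → ∀ c, Obsv (cexp ν m Y H c) :=
      fun hH c => hH.cexp ν hm hY c
    -- the case of the first observable at the last replica and the second at an old one
    have key : ∀ (c : Fin (k + 1)) {H H' : (Fin r → β) → ℝ}, Obsv H → Obsv H' →
        treeW ν m Y (fun x ρ => atRep a' (cexp ν m Y H q.val) x ρ * atRep c H' x ρ) w =
          logD ν m Y fun ω => Y ω *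
            (cexp ν m Y H (min q (w a' c)).val ω * cexp ν m Y H' (min q (w a' c)).val ω) := by
      intro c H H' hH hH'
      rw [ih hi a' c (hlast hH q.val) hH']
      rcases le_total q (w a' c) with hle | hle
      · rw [min_eq_left hle]
        have hpre : ∀ ω, cexp ν m Y (cexp ν m Y H q.val) (w a' c).val ω = cexp ν m Y H q.val ω :=
          fun ω => cexp_of_prefix ν hm hY _ _ ω fun u u' hu =>
            cexp_prefix ν m Y H q.val u u' fun i hi' => hu i (lt_of_lt_of_le hi' hle)
        simp only [hpre]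
        rw [← logD_tower ν hm hY
          (fun ω => cexp ν m Y H q.val ω * cexp ν m Y H' (w a' c).val ω) q.val]
        simp only [cexp_mul ν m Y (cexp ν m Y H q.val) (cexp ν m Y H' (w a' c).val) q.val _
          (fun u u' hu => cexp_prefix ν m Y H q.val u u' hu),
          fun ω => cexp_tower ν hm hY H' q.val (w a' c).val ω hle]
      · rw [min_eq_right hle]
        simp only [fun ω => cexp_tower ν hm hY H (w a' c).val q.val ω hle]
    induction a using Fin.lastCases with
    | last =>
      induction b using Fin.lastCases with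
      | last =>
        have e := key a' (H := fun ρ => h ρ * h' ρ) (H' := fun _ => 1) (hh.mul hh') obsv_one
        rw [attach_last]
        simp only [hdiag, min_eq_left (Fin.le_last q), cexp_const ν hm hY, mul_one] at e
        rw [logD_tower ν hm hY] at e
        simp only [Fin.val_last, cexp_last ν hm hY]
        refine Eq.trans ?_ e
        congr 1
        funext x ρ
        rcases eq_or_ne x a' with rfl | hx
        · simp [atRep, (Fin.castSucc_lt_last _).ne]
        · simp [atRep, hx, (Fin.castSucc_lt_last _).ne]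
      | cast c =>
        rw [attach_new]
        refine Eq.trans ?_ (key c hh hh')
        congr 1
        funext x ρ
        rcases eq_or_ne x a' with rfl | hx
        · simp [atRep, (Fin.castSucc_lt_last _).ne, (Fin.castSucc_lt_last _).ne', mul_comm]
        · simp [atRep, hx, (Fin.castSucc_lt_last _).ne]
    | cast c =>
      induction b using Fin.lastCases with
      | last =>
        rw [hv.symm, attach_new]
        simp only [mul_comm (cexp ν m Y h _ _)]
        refine Eq.trans ?_ (key c hh' hh)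
        congr 1
        funext x ρ
        rcases eq_or_ne x a' with rfl | hx
        · simp [atRep, (Fin.castSucc_lt_last _).ne, (Fin.castSucc_lt_last _).ne', mul_comm]
        · simp [atRep, hx, (Fin.castSucc_lt_last _).ne]
      | cast d =>
        rw [attach_old]
        refine Eq.trans ?_ (ih hi c d hh hh')
        congr 1
        funext x ρ
        have hne : ∀ y : Fin (k + 1), Fin.last (k + 1) ≠ y.castSucc := fun y =>
          (Fin.castSucc_lt_last y).ne'
        have h1 : cexp ν m Y (fun ρ => atRep c.castSucc h (Fin.last _) ρ *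
            atRep d.castSucc h' (Fin.last _) ρ) q.val = fun _ => 1 := by
          funext u
          simp [atRep, hne, cexp_const ν hm hY]
        rcases eq_or_ne x a' with rfl | hx
        · simp [atRep, hne, cexp_const ν hm hY]
        · simp [atRep, hx]

end Vale.Agent.P157.Parisi

end
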