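import Vale.Agent.P157.Parisi.ModA.Slope
import Vale.Agent.P157.Parisi.ModA.TiltFactor
import Vale.Agent.P157.Parisi.ModA.TreeMoment

/-!
Tilted means of fresh-pattern observables on a tree.
-/

noncomputable section

set_option linter.unusedVariables false

open MeasureTheory ProbabilityTheory Filter Topology
open scoped BigOperators

namespace Vale.Agent.P157.Parisi

open Vale.Agent.P168 (Shape shapeMarks)
open Vale.Agent.P168.Cascade (Exps Bdd IsTree logW logD tableLaw)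

lemma IsPath.exps {r : ℕ} {m : Fin r → ℝ} {q : Fin (r + 1) → ℝ} (h : IsPath m q) : Exps m :=
  ⟨h.pos, h.lt_one, h.strictMono⟩

variable {f : ℝ → ℝ} {A : ℝ}

lemma Obs.Good.bounds {n : ℕ} {o : Obs n} (ho : o.Good) :
    ∃ C, CB C o.h ∧ CB C o.h' ∧ CB (C * C) fun z => o.h z * o.h' z := by
  obtain ⟨h1, h2, C, hC⟩ := ho
  refine ⟨C, ⟨h1, fun z => (hC z).1⟩, ⟨h2, fun z => (hC z).2⟩, h1.mul h2, fun z => ?_⟩
  rw [abs_mul]
  exact mul_le_mul (hC z).1 (hC z).2 (abs_nonneg _) ((abs_nonneg _).trans (hC z).1)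

lemma CB.obsv {C : ℝ} {h : ℝ → ℝ} (hh : CB C h) {r : ℕ} (q : Fin (r + 1) → ℝ) (x : ℝ) :
    Obsv fun ρ : Fin r → ℝ => h (fieldFrom q x ρ) :=
  ⟨(hh.cont.comp (continuous_fieldFrom q x)).measurable, C, fun _ => hh.bound _⟩

/-- One pattern on a tree. -/
lemma treeW_obs (hf : Smooth f A) (ξ : Path) {n : ℕ} {o : Obs n} (ho : o.Good)
    {v : Shape ξ.r n} (hv : IsTree v) (x : ℝ) :
    treeW (gaussianReal 0 1) ξ.m (pathY ξ.q (ξ.top f) x)
        (fun l ρ => o.barAt f (1 - ξ.q (Fin.last ξ.r)) l (fieldFrom ξ.q x ρ)) v =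
      if o.a = o.b then
        down ξ.m ξ.q (ξ.top f) (Fin.last ξ.r)
          (bar f (1 - ξ.q (Fin.last ξ.r)) fun z => o.h z * o.h' z) x
      else down ξ.m ξ.q (ξ.top f) (v o.a o.b)
        (fun y => up ξ.m ξ.q (ξ.top f) (v o.a o.b) (bar f (1 - ξ.q (Fin.last ξ.r)) o.h) y *
          up ξ.m ξ.q (ξ.top f) (v o.a o.b) (bar f (1 - ξ.q (Fin.last ξ.r)) o.h') y) x := by
  obtain ⟨C, h1, h2, h3⟩ := ho.bounds
  set δ := 1 - ξ.q (Fin.last ξ.r)
  have hφ : CB A (ξ.top f) := hf.cb_top δ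
  have hm := ξ.isPath.exps
  have hY := bdd_pathY hφ ξ.q x
  split_ifs with hab
  · have hg : (fun l ρ => o.barAt f δ l (fieldFrom ξ.q x ρ)) = fun l ρ =>
        atRep o.a (fun ρ => bar f δ (fun z => o.h z * o.h' z) (fieldFrom ξ.q x ρ)) l ρ *
          atRep o.b (fun _ => 1) l ρ := by
      funext l ρ
      simp only [Obs.barAt, atRep, ← hab]
      split_ifs <;> simp
    rw [hg, treeW_pair _ hm hY hv o.a o.b ((cb_bar hf.cb h3 δ).obsv ξ.q x) obsv_one, ← hab, hv.diag]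
    simp only [cexp_const _ hm hY, mul_one, cexp_pathY hφ hm.pos, up_last]
    exact logD_partFrom hφ _ hm ξ.q _ x
  · have hg : (fun l ρ => o.barAt f δ l (fieldFrom ξ.q x ρ)) = fun l ρ =>
        atRep o.a (fun ρ => bar f δ o.h (fieldFrom ξ.q x ρ)) l ρ *
          atRep o.b (fun ρ => bar f δ o.h' (fieldFrom ξ.q x ρ)) l ρ := by
      funext l ρ
      simp only [Obs.barAt, if_neg hab, atRep]
      by_cases hla : l = o.a
      · subst hla; simp [hab]
      · simp [hla]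
    rw [hg, treeW_pair _ hm hY hv o.a o.b ((cb_bar hf.cb h1 δ).obsv ξ.q x)
      ((cb_bar hf.cb h2 δ).obsv ξ.q x)]
    simp only [cexp_pathY hφ hm.pos]
    exact logD_partFrom hφ
      (fun y => up ξ.m ξ.q (ξ.top f) (v o.a o.b) (bar f δ o.h) y *
        up ξ.m ξ.q (ξ.top f) (v o.a o.b) (bar f δ o.h') y) hm ξ.q _ x

theorem tree_shape : TreeShapeStmt := by
  intro f A hf ξ k n o ho v hv
  set δ := 1 - ξ.q (Fin.last ξ.r) with hδ
  have hφ : CB A (ξ.top f) := hf.cb_top δ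
  have hm := ξ.isPath.exps
  set Φ : Fin k → ℝ → ℝ := fun j x => treeW (gaussianReal 0 1) ξ.m (pathY ξ.q (ξ.top f) x)
      (fun l ρ => (o j).barAt f δ l (fieldFrom ξ.q x ρ)) v with hΦ
  have hfac : ∀ g₀ : Fin k → ℝ,
      (∫ ω : Fin ξ.r → Fin n → Fin k → ℝ,
          Real.exp (logW (gam (Fin k)) ξ.m (leafY ξ f g₀) v ω) *
            ∏ l, (leafY ξ f g₀ (shapeMarks v ω l) *
              ∏ j, (o j).barAt f δ l (pathField ξ.q (g₀ j) fun p => shapeMarks v ω l p j))
          ∂tableLaw (gam (Fin k)) ξ.r n) = ∏ j, Φ j (Real.sqrt (ξ.q 0) * g₀ j) := by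
    intro g₀
    have hmb : ∀ j l, Measurable fun ρ : Fin ξ.r → ℝ =>
        pathY ξ.q (ξ.top f) (Real.sqrt (ξ.q 0) * g₀ j) ρ *
          (o j).barAt f δ l (fieldFrom ξ.q (Real.sqrt (ξ.q 0) * g₀ j) ρ) := fun j l => by
      obtain ⟨C, h1, h2, h3⟩ := (ho j).bounds
      have hc : ∀ l, Continuous ((o j).barAt f δ l) := fun l => by
        unfold Obs.barAt
        split_ifs
        · exact (cb_bar hf.cb h3 δ).cont
        · exact continuous_const
        · exact (cb_bar hf.cb h1 δ).cont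
        · exact (cb_bar hf.cb h2 δ).cont
        · exact continuous_const
      exact (bdd_pathY hφ ξ.q _).meas.mul ((hc l).comp (continuous_fieldFrom _ _)).measurable
    refine Eq.trans ?_ (tilt_family (gaussianReal 0 1) (C := Real.exp A) hm
      (Y := fun j => pathY ξ.q (ξ.top f) (Real.sqrt (ξ.q 0) * g₀ j))
      (fun j => bdd_pathY hφ ξ.q _) hmb v)
    refine integral_congr_ae (Eventually.of_forall fun ω => ?_)
    simp only [leafY, ← Finset.prod_mul_distrib]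
    rfl
  simp only [hfac]
  rw [integral_fintype_prod_eq_prod (μ := fun _ : Fin k => gaussianReal 0 1)
    (fun j g => Φ j (Real.sqrt (ξ.q 0) * g))]
  refine Finset.prod_congr rfl fun j _ => ?_
  simp only [hΦ, hδ, treeW_obs hf ξ (ho j) hv, Obs.val, Path.oneVal, Path.pairVal]
  split_ifs <;> rfl

end Vale.Agent.P157.Parisi

end
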