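import Vale.Agent.P168.Cascade.Moments

/-!
Conditional expectations under the tilt of a nested mean.
-/

noncomputable section

set_option linter.unusedVariables false
set_option linter.unusedSectionVars false

open MeasureTheory ProbabilityTheory Filter Topology

namespace Vale.Agent.P157.Parisi

open Vale.Agent.P168 (genNested)
open Vale.Agent.P168.Cascade

variable {β : Type} [MeasurableSpace β] (ν : Measure β)

/-- The mean of `h` given the first `p` marks, under the tilt of `Y`. -/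
def cexp {r : ℕ} (m : Fin r → ℝ) (Y h : (Fin r → β) → ℝ) (p : ℕ) (ρ : Fin r → β) : ℝ :=
  condD ν m Y (fun ω => Y ω * h ω) p ρ

lemma logD_mul_const : ∀ {r : ℕ} (m : Fin r → ℝ) (Y h : (Fin r → β) → ℝ) (c : ℝ),
    logD ν m Y (fun ω => c * h ω) = c * logD ν m Y h
  | 0, _, _, _, _ => mul_div_assoc _ _ _
  | r + 1, m, Y, h, c => by
    simp only [logD, logD_mul_const (Fin.tail m) _ _ c, mul_left_comm _ c, integral_const_mul,
      mul_div_assoc]

lemma condD_mul_const : ∀ {r : ℕ} (m : Fin r → ℝ) (Y h : (Fin r → β) → ℝ) (c : ℝ) (p : ℕ)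
    (ρ : Fin r → β), condD ν m Y (fun ω => c * h ω) p ρ = c * condD ν m Y h p ρ
  | 0, m, Y, h, c, _, _ => logD_mul_const ν m Y h c
  | r + 1, m, Y, h, c, 0, _ => logD_mul_const ν m Y h c
  | r + 1, m, Y, h, c, p + 1, ρ => condD_mul_const (Fin.tail m) _ _ c p (Fin.tail ρ)

variable [IsProbabilityMeasure ν] {C : ℝ}

/-- The mean of a constant. -/
lemma logD_self : ∀ {r : ℕ} {m : Fin r → ℝ}, Exps m → ∀ {Y : (Fin r → β) → ℝ}, Bdd C Y →
    ∀ c : ℝ, logD ν m Y (fun ω => Y ω * c) = c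
  | 0, m, _, Y, hY, c => mul_div_cancel_left₀ c (hY.gt_zero _).ne'
  | r + 1, m, hm, Y, hY, c => by
    obtain ⟨-, hpos⟩ := weight_facts ν hm hY
    simp only [logD, fun b => logD_self hm.tail (hY.cons b) c, integral_mul_const]
    exact mul_div_cancel_left₀ c hpos.ne'

lemma cexp_zero {r : ℕ} (m : Fin r → ℝ) (Y h : (Fin r → β) → ℝ) (ρ : Fin r → β) :
    cexp ν m Y h 0 ρ = logD ν m Y fun ω => Y ω * h ω :=
  condD_zero ν m Y _ ρ

lemma cexp_const {r : ℕ} {m : Fin r → ℝ} (hm : Exps m) {Y : (Fin r → β) → ℝ} (hY : Bdd C Y)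
    (c : ℝ) : ∀ (p : ℕ) (ρ : Fin r → β), cexp ν m Y (fun _ => c) p ρ = c := by
  induction r with
  | zero => exact fun p ρ => logD_self ν hm hY c
  | succ r ih =>
    intro p ρ
    cases p with
    | zero => exact logD_self ν hm hY c
    | succ p => exact ih hm.tail (hY.cons (ρ 0)) p (Fin.tail ρ)

/-- A function of the first `p` marks comes out. -/
lemma cexp_mul {r : ℕ} : ∀ (m : Fin r → ℝ) (Y g h : (Fin r → β) → ℝ) (p : ℕ) (ρ : Fin r → β),
    (∀ ω ω' : Fin r → β, (∀ i : Fin r, i.val < p → ω i = ω' i) → g ω = g ω') →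
    cexp ν m Y (fun ω => g ω * h ω) p ρ = g ρ * cexp ν m Y h p ρ := by
  induction r with
  | zero =>
    intro m Y g h p ρ hg
    refine Eq.trans ?_ (logD_mul_const ν m Y (fun ω => Y ω * h ω) (g ρ))
    show logD ν m Y (fun ω => Y ω * (g ω * h ω)) = _
    congr 1
    funext ω
    rw [hg ω ρ fun i => i.elim0]
    ring
  | succ r ih =>
    intro m Y g h p ρ hg
    cases p with
    | zero =>
      refine Eq.trans ?_ (logD_mul_const ν m Y (fun ω => Y ω * h ω) (g ρ))
      show logD ν m Y (fun ω => Y ω * (g ω * h ω)) = _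
      congr 1
      funext ω
      rw [hg ω ρ fun i hi => absurd hi (Nat.not_lt_zero _)]
      ring
    | succ p =>
      refine (ih (Fin.tail m) (fun ω => Y (Fin.cons (ρ 0) ω)) (fun ω => g (Fin.cons (ρ 0) ω))
        (fun ω => h (Fin.cons (ρ 0) ω)) p (Fin.tail ρ) fun ω ω' hω => hg _ _ fun i hi => ?_).trans ?_
      · cases i using Fin.cases with
        | zero => rfl
        | succ i => simpa using hω i (Nat.lt_of_succ_lt_succ hi)
      · show g (Fin.cons (ρ 0) (Fin.tail ρ)) * _ = _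
        rw [cons_tail]
        rfl

/-- Iterated means. -/
lemma cexp_tower {r : ℕ} {m : Fin r → ℝ} (hm : Exps m) {Y : (Fin r → β) → ℝ} (hY : Bdd C Y)
    (h : (Fin r → β) → ℝ) : ∀ (p q : ℕ) (ρ : Fin r → β), p ≤ q →
    cexp ν m Y (cexp ν m Y h q) p ρ = cexp ν m Y h p ρ := by
  induction r with
  | zero =>
    intro p q ρ _
    show cexp ν m Y (fun _ => logD ν m Y fun ω => Y ω * h ω) p ρ = _
    rw [cexp_const ν hm hY]
    rfl
  | succ r ih =>
    intro p q ρ hpq
    rcases p with _ | p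
    · rcases q with _ | q
      · show cexp ν m Y (fun _ => logD ν m Y fun ω => Y ω * h ω) 0 ρ = _
        rw [cexp_const ν hm hY]
        rfl
      · show logD ν m Y (fun ω => Y ω * cexp ν m Y h (q + 1) ω) =
          logD ν m Y (fun ω => Y ω * h ω)
        simp only [logD]
        congr 1
        refine integral_congr_ae (Eventually.of_forall fun b => ?_)
        simp only [mul_eq_mul_left_iff]
        left
        have := ih hm.tail (hY.cons b) (fun ω => h (Fin.cons b ω)) 0 q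
          (fun _ => b) (Nat.zero_le q)
        rw [cexp_zero, cexp_zero] at this
        refine Eq.trans ?_ this
        congr 1
    · obtain ⟨q, rfl⟩ : ∃ q', q = q' + 1 := ⟨q - 1, by omega⟩
      refine Eq.trans ?_ (ih hm.tail (hY.cons (ρ 0)) (fun ω => h (Fin.cons (ρ 0) ω)) p q
        (Fin.tail ρ) (by omega))
      show condD ν _ _ _ p _ = condD ν _ _ _ p _
      congr 1

omit [IsProbabilityMeasure ν] in
lemma cexp_prefix {r : ℕ} (m : Fin r → ℝ) (Y h : (Fin r → β) → ℝ) (p : ℕ) (ρ ρ' : Fin r → β)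
    (hρ : ∀ i : Fin r, i.val < p → ρ i = ρ' i) : cexp ν m Y h p ρ = cexp ν m Y h p ρ' :=
  condD_prefix ν m Y _ p ρ ρ' hρ

/-- Measurable and bounded. -/
def Obsv {α : Type} [MeasurableSpace α] (h : α → ℝ) : Prop :=
  Measurable h ∧ ∃ B, ∀ ω, |h ω| ≤ B

lemma obsv_one {α : Type} [MeasurableSpace α] : Obsv fun _ : α => (1 : ℝ) :=
  ⟨measurable_const, 1, fun _ => by simp⟩

lemma Obsv.mul {α : Type} [MeasurableSpace α] {g h : α → ℝ} (hg : Obsv g) (hh : Obsv h) :
    Obsv fun ω => g ω * h ω := by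
  obtain ⟨hgm, A, hA⟩ := hg
  obtain ⟨hhm, B, hB⟩ := hh
  exact ⟨hgm.mul hhm, A * B, fun ω => by
    rw [abs_mul]
    exact mul_le_mul (hA ω) (hB ω) (abs_nonneg _) ((abs_nonneg _).trans (hA ω))⟩

lemma Obsv.exists_one_le {α : Type} [MeasurableSpace α] {h : α → ℝ} (hh : Obsv h) :
    ∃ B, 1 ≤ B ∧ ∀ ω, |h ω| ≤ B :=
  let ⟨B, hB⟩ := hh.2; ⟨max B 1, le_max_right _ _, fun ω => (hB ω).trans (le_max_left _ _)⟩

lemma Obsv.cexp {r : ℕ} {m : Fin r → ℝ} (hm : Exps m) {Y : (Fin r → β) → ℝ} (hY : Bdd C Y)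
    {h : (Fin r → β) → ℝ} (hh : Obsv h) (p : ℕ) : Obsv (cexp ν m Y h p) := by
  refine ⟨measurable_condD ν m p (Y := fun _ => Y) (h := fun _ ω => Y ω * h ω) (ρ := fun ρ => ρ)
    (hY.meas.comp measurable_snd) ((hY.meas.mul hh.1).comp measurable_snd) measurable_id, ?_⟩
  obtain ⟨B, hB1, hB⟩ := hh.exists_one_le
  have hB0 : 0 < B := zero_lt_one.trans_le hB1
  have hC := hY.pos
  refine ⟨C * B * C, fun ρ => ?_⟩
  have hs : ∀ ω, |(C * B)⁻¹ * (Y ω * h ω)| ≤ 1 := fun ω => by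
    rw [abs_mul, abs_mul, abs_of_pos (inv_pos.2 (mul_pos hC hB0)), abs_of_pos (hY.gt_zero ω),
      inv_mul_le_one₀ (mul_pos hC hB0)]
    exact mul_le_mul (hY.mem ω).2 (hB ω) (abs_nonneg _) hC.le
  have h1 := abs_condD_le ν hm hY (((hY.meas.mul hh.1)).const_mul (C * B)⁻¹) hs p ρ
  simp only [Pi.mul_apply] at h1
  rw [condD_mul_const, abs_mul, abs_of_pos (inv_pos.2 (mul_pos hC hB0)),
    inv_mul_le_iff₀ (mul_pos hC hB0)] at h1
  exact h1

end Vale.Agent.P157.Parisi

end
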