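import Vale.Agent.P157.Parisi.System

/-!
One step of the Parisi recursion: bounds, continuity and differentiation.
-/

noncomputable section

open MeasureTheory ProbabilityTheory Filter Topology

namespace Vale.Agent.P157.Parisi

/-- A continuous bounded function. -/
structure CB (C : ℝ) (φ : ℝ → ℝ) : Prop where
  cont : Continuous φ
  bound : ∀ x, |φ x| ≤ C

lemma CB.nonneg {C : ℝ} {φ : ℝ → ℝ} (h : CB C φ) : 0 ≤ C := (abs_nonneg _).trans (h.bound 0)

lemma CB.integrable {C : ℝ} {φ : ℝ → ℝ} (h : CB C φ) (μ : Measure ℝ) [IsFiniteMeasure μ] :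
    Integrable φ μ :=
  Integrable.of_bound h.cont.aestronglyMeasurable C
    (Eventually.of_forall fun x => by rw [Real.norm_eq_abs]; exact h.bound x)

/-- The weight of a step. -/
def wgt (m δ : ℝ) (F : ℝ → ℝ) (x g : ℝ) : ℝ := Real.exp (m * F (x + Real.sqrt δ * g))

lemma tilt_eq (m δ : ℝ) (F h : ℝ → ℝ) (x : ℝ) :
    tilt m δ F h x = (∫ g, wgt m δ F x g * h (x + Real.sqrt δ * g) ∂gaussianReal 0 1) /
      ∫ g, wgt m δ F x g ∂gaussianReal 0 1 := rfl

lemma layer_eq (m δ : ℝ) (F : ℝ → ℝ) (x : ℝ) :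
    layer m δ F x = 1 / m * Real.log (∫ g, wgt m δ F x g ∂gaussianReal 0 1) := rfl

lemma topMean_eq (f : ℝ → ℝ) (δ : ℝ) : topMean f δ = layer 1 δ f := by
  funext x
  simp [topMean, layer]

lemma bar_eq (f : ℝ → ℝ) (δ : ℝ) (h : ℝ → ℝ) : bar f δ h = tilt 1 δ f h := by
  funext x
  simp [bar, tilt]

variable {m δ C D : ℝ} {F h : ℝ → ℝ}

lemma wgt_mem (hm : 0 ≤ m) (hF : CB C F) (x g : ℝ) :
    Real.exp (-(m * C)) ≤ wgt m δ F x g ∧ wgt m δ F x g ≤ Real.exp (m * C) := by
  have := abs_le.1 (hF.bound (x + Real.sqrt δ * g))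
  unfold wgt
  constructor <;> apply Real.exp_le_exp.2 <;> nlinarith

lemma continuous_wgt (hF : CB C F) (x : ℝ) : Continuous (wgt m δ F x) :=
  (continuous_const.mul (hF.cont.comp (continuous_const.add (continuous_const.mul continuous_id)))).rexp

lemma integrable_wgt (hm : 0 ≤ m) (hF : CB C F) (x : ℝ) :
    Integrable (wgt m δ F x) (gaussianReal 0 1) :=
  Integrable.of_bound (continuous_wgt hF x).aestronglyMeasurable (Real.exp (m * C))
    (Eventually.of_forall fun g => by
      rw [Real.norm_eq_abs, wgt, abs_of_pos (Real.exp_pos _)]; exact (wgt_mem hm hF x g).2)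

lemma integral_wgt_mem (hm : 0 ≤ m) (hF : CB C F) (x : ℝ) :
    Real.exp (-(m * C)) ≤ ∫ g, wgt m δ F x g ∂gaussianReal 0 1 ∧
      ∫ g, wgt m δ F x g ∂gaussianReal 0 1 ≤ Real.exp (m * C) :=
  ⟨by simpa using integral_mono (integrable_const _) (integrable_wgt hm hF x) fun g =>
      (wgt_mem (δ := δ) hm hF x g).1,
    by simpa using integral_mono (integrable_wgt hm hF x) (integrable_const _) fun g =>
      (wgt_mem (δ := δ) hm hF x g).2⟩

lemma integral_wgt_pos (hm : 0 ≤ m) (hF : CB C F) (x : ℝ) :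
    0 < ∫ g, wgt m δ F x g ∂gaussianReal 0 1 :=
  (Real.exp_pos _).trans_le (integral_wgt_mem hm hF x).1

lemma continuous_wgt_mul (hF : CB C F) (hh : CB D h) (x : ℝ) :
    Continuous fun g => wgt m δ F x g * h (x + Real.sqrt δ * g) :=
  (continuous_wgt hF x).mul (hh.cont.comp (continuous_const.add (continuous_const.mul continuous_id)))

lemma abs_wgt_mul_le (hh : CB D h) (x g : ℝ) :
    |wgt m δ F x g * h (x + Real.sqrt δ * g)| ≤ D * wgt m δ F x g := by
  rw [abs_mul, wgt, abs_of_pos (Real.exp_pos _), mul_comm D]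
  exact mul_le_mul_of_nonneg_left (hh.bound _) (Real.exp_pos _).le

lemma integrable_wgt_mul (hm : 0 ≤ m) (hF : CB C F) (hh : CB D h) (x : ℝ) :
    Integrable (fun g => wgt m δ F x g * h (x + Real.sqrt δ * g)) (gaussianReal 0 1) :=
  Integrable.of_bound (continuous_wgt_mul hF hh x).aestronglyMeasurable (D * Real.exp (m * C))
    (Eventually.of_forall fun g => by
      rw [Real.norm_eq_abs]
      exact (abs_wgt_mul_le hh x g).trans
        (mul_le_mul_of_nonneg_left (wgt_mem hm hF x g).2 hh.nonneg))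

lemma cb_layer (hm : 0 < m) (hF : CB C F) : CB C (layer m δ F) := by
  constructor
  · refine continuous_const.mul (Continuous.log ?_ fun x => (integral_wgt_pos hm.le hF x).ne')
    refine continuous_of_dominated (fun x => (continuous_wgt hF x).aestronglyMeasurable)
      (bound := fun _ => Real.exp (m * C)) (fun x => Eventually.of_forall fun g => ?_)
      (integrable_const _) (Eventually.of_forall fun g => ?_)
    · rw [Real.norm_eq_abs, abs_of_pos (Real.exp_pos _)]; exact (wgt_mem hm.le hF x g).2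
    · exact (continuous_const.mul (hF.cont.comp (continuous_id.add continuous_const))).rexp
  · intro x
    obtain ⟨h1, h2⟩ := integral_wgt_mem (δ := δ) hm.le hF x
    have l1 := Real.log_le_log (Real.exp_pos _) h1
    have l2 := Real.log_le_log (integral_wgt_pos (δ := δ) hm.le hF x) h2
    rw [Real.log_exp] at l1 l2
    rw [layer_eq, abs_mul, abs_of_pos (one_div_pos.2 hm), one_div, inv_mul_le_iff₀ hm]
    exact abs_le.2 ⟨l1, l2⟩

lemma cb_tilt (hm : 0 < m) (hF : CB C F) (hh : CB D h) : CB D (tilt m δ F h) := by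
  constructor
  · refine Continuous.div ?_ ?_ fun x => (integral_wgt_pos hm.le hF x).ne'
    · refine continuous_of_dominated (fun x => (continuous_wgt_mul hF hh x).aestronglyMeasurable)
        (bound := fun _ => D * Real.exp (m * C)) (fun x => Eventually.of_forall fun g => ?_)
        (integrable_const _) (Eventually.of_forall fun g => ?_)
      · rw [Real.norm_eq_abs]
        exact (abs_wgt_mul_le hh x g).trans
          (mul_le_mul_of_nonneg_left (wgt_mem hm.le hF x g).2 hh.nonneg)
      · exact ((continuous_const.mul (hF.cont.comp (continuous_id.add continuous_const))).rexp).mul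
          (hh.cont.comp (continuous_id.add continuous_const))
    · refine continuous_of_dominated (fun x => (continuous_wgt hF x).aestronglyMeasurable)
        (bound := fun _ => Real.exp (m * C)) (fun x => Eventually.of_forall fun g => ?_)
        (integrable_const _) (Eventually.of_forall fun g => ?_)
      · rw [Real.norm_eq_abs, abs_of_pos (Real.exp_pos _)]; exact (wgt_mem hm.le hF x g).2
      · exact (continuous_const.mul (hF.cont.comp (continuous_id.add continuous_const))).rexp
  · intro x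
    rw [tilt_eq, abs_div, abs_of_pos (integral_wgt_pos hm.le hF x),
      div_le_iff₀ (integral_wgt_pos hm.le hF x), ← integral_const_mul]
    exact abs_integral_le_integral_abs.trans (integral_mono
      (integrable_wgt_mul hm.le hF hh x).abs ((integrable_wgt hm.le hF x).const_mul D)
      fun g => abs_wgt_mul_le hh x g)

lemma tilt_one (hm : 0 ≤ m) (hF : CB C F) (x : ℝ) : tilt m δ F (fun _ => 1) x = 1 := by
  simp only [tilt_eq, mul_one]
  exact div_self (integral_wgt_pos hm hF x).ne'

lemma tilt_mono {h' : ℝ → ℝ} {D' : ℝ} (hm : 0 ≤ m) (hF : CB C F) (hh : CB D h) (hh' : CB D' h')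
    (hle : ∀ y, h y ≤ h' y) (x : ℝ) : tilt m δ F h x ≤ tilt m δ F h' x :=
  div_le_div_of_nonneg_right (integral_mono (integrable_wgt_mul hm hF hh x)
    (integrable_wgt_mul hm hF hh' x) fun _ =>
      mul_le_mul_of_nonneg_left (hle _) (Real.exp_pos _).le) (integral_wgt_pos hm hF x).le

/-- Jensen's inequality for a tilt. -/
lemma sq_tilt_le (hm : 0 ≤ m) (hF : CB C F) (hh : CB D h) (x : ℝ) :
    tilt m δ F h x ^ 2 ≤ tilt m δ F (fun y => h y ^ 2) x := by
  have hh2 : CB (D ^ 2) fun y => h y ^ 2 := ⟨hh.cont.pow 2, fun y => by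
    rw [abs_pow]; exact pow_le_pow_left₀ (abs_nonneg _) (hh.bound y) 2⟩
  have hpos := integral_wgt_pos (δ := δ) hm hF x
  set c := tilt m δ F h x with hc
  have hi1 := integrable_wgt_mul (δ := δ) hm hF hh x
  have hi2 := integrable_wgt_mul (δ := δ) hm hF hh2 x
  have hnn : 0 ≤ ∫ g, wgt m δ F x g * (h (x + Real.sqrt δ * g) - c) ^ 2 ∂gaussianReal 0 1 :=
    integral_nonneg fun g => mul_nonneg (Real.exp_pos _).le (sq_nonneg _)
  have he : ∀ g, wgt m δ F x g * (h (x + Real.sqrt δ * g) - c) ^ 2 =
      wgt m δ F x g * h (x + Real.sqrt δ * g) ^ 2 -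
        2 * c * (wgt m δ F x g * h (x + Real.sqrt δ * g)) + c ^ 2 * wgt m δ F x g := fun g => by ring
  simp only [he] at hnn
  rw [integral_add (hi2.sub' (hi1.const_mul _)) ((integrable_wgt hm hF x).const_mul _),
    integral_sub hi2 (hi1.const_mul _), integral_const_mul, integral_const_mul] at hnn
  have h1 : ∫ g, wgt m δ F x g * h (x + Real.sqrt δ * g) ∂gaussianReal 0 1 =
      c * ∫ g, wgt m δ F x g ∂gaussianReal 0 1 := by
    rw [hc, tilt_eq, div_mul_cancel₀ _ hpos.ne']
  rw [h1] at hnn
  rw [tilt_eq, le_div_iff₀ hpos]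
  linarith [hnn, show 2 * c * (c * ∫ g, wgt m δ F x g ∂gaussianReal 0 1) =
    2 * (c ^ 2 * ∫ g, wgt m δ F x g ∂gaussianReal 0 1) by ring]

/-- The derivative of a step is the tilted derivative. -/
lemma hasDerivAt_layer {F' : ℝ → ℝ} (hm : 0 < m) (hF : CB C F) (hF' : CB D F')
    (hd : ∀ y, HasDerivAt F (F' y) y) (x : ℝ) :
    HasDerivAt (layer m δ F) (tilt m δ F F' x) x := by
  have hpos := integral_wgt_pos (δ := δ) hm.le hF x
  obtain ⟨-, hI⟩ := hasDerivAt_integral_of_dominated_loc_of_deriv_le (μ := gaussianReal 0 1)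
    (x₀ := x) (F := fun y g => wgt m δ F y g)
    (F' := fun y g => m * (wgt m δ F y g * F' (y + Real.sqrt δ * g)))
    (bound := fun _ => m * (D * Real.exp (m * C))) univ_mem
    (Eventually.of_forall fun y => (continuous_wgt hF y).aestronglyMeasurable)
    (integrable_wgt hm.le hF x)
    ((continuous_wgt_mul hF hF' x).const_mul m).aestronglyMeasurable
    (Eventually.of_forall fun g y _ => by
      rw [Real.norm_eq_abs, abs_mul, abs_of_pos hm]
      exact mul_le_mul_of_nonneg_left ((abs_wgt_mul_le hF' y g).trans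
        (mul_le_mul_of_nonneg_left (wgt_mem hm.le hF y g).2 hF'.nonneg)) hm.le)
    (integrable_const _)
    (Eventually.of_forall fun g y _ => by
      refine ((((hd (y + Real.sqrt δ * g)).comp_add_const y (Real.sqrt δ * g)).const_mul m).exp
        ).congr_deriv ?_
      show Real.exp (m * F (y + Real.sqrt δ * g)) * (m * F' (y + Real.sqrt δ * g)) = _
      rw [wgt]; ring)
  rw [integral_const_mul] at hI
  refine ((hI.log hpos.ne').const_mul (1 / m)).congr_deriv ?_
  rw [tilt_eq]
  field_simp

end Vale.Agent.P157.Parisi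

end
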