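import Vale.Agent.P157.Parisi.Statements
import Vale.Agent.P157.Parisi.ModA.Layer
import Vale.Agent.P157.Parisi.ModA.Expect

/-!
The recursion as nested means of a cascade of Gaussian marks.
-/

noncomputable section

set_option linter.unusedVariables false

open MeasureTheory ProbabilityTheory Filter Topology

namespace Vale.Agent.P157.Parisi

open Vale.Agent.P168 (genNested)
open Vale.Agent.P168.Cascade (Exps Bdd cond condD logD cond_zero condD_zero)

/-- The field started at `x`. -/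
def fieldFrom {r : ℕ} (q : Fin (r + 1) → ℝ) (x : ℝ) (ω : Fin r → ℝ) : ℝ :=
  x + ∑ p : Fin r, Real.sqrt (q p.succ - q p.castSucc) * ω p

/-- The field at depth `p` started at `x`. -/
def partFrom {r : ℕ} (q : Fin (r + 1) → ℝ) (x : ℝ) (ω : Fin r → ℝ) (p : Fin (r + 1)) : ℝ :=
  x + ∑ i : Fin r, if i.val < p.val then Real.sqrt (q i.succ - q i.castSucc) * ω i else 0

lemma pathField_eq {r : ℕ} (q : Fin (r + 1) → ℝ) (g₀ : ℝ) (ω : Fin r → ℝ) :
    pathField q g₀ ω = fieldFrom q (Real.sqrt (q 0) * g₀) ω := rfl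

lemma partField_eq {r : ℕ} (q : Fin (r + 1) → ℝ) (g₀ : ℝ) (ω : Fin r → ℝ) (p : Fin (r + 1)) :
    partField q g₀ ω p = partFrom q (Real.sqrt (q 0) * g₀) ω p := rfl

@[simp] lemma partFrom_zero {r : ℕ} (q : Fin (r + 1) → ℝ) (x : ℝ) (ω : Fin r → ℝ) :
    partFrom q x ω 0 = x := by simp [partFrom]

lemma fieldFrom_cons {r : ℕ} (q : Fin (r + 2) → ℝ) (x : ℝ) (b : ℝ) (ω : Fin r → ℝ) :
    fieldFrom q x (Fin.cons b ω) =
      fieldFrom (Fin.tail q) (x + Real.sqrt (q 1 - q 0) * b) ω := by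
  simp [fieldFrom, Fin.sum_univ_succ, Fin.tail, add_assoc]

lemma partFrom_succ {r : ℕ} (q : Fin (r + 2) → ℝ) (x : ℝ) (ω : Fin (r + 1) → ℝ) (p : Fin (r + 1)) :
    partFrom q x ω p.succ =
      partFrom (Fin.tail q) (x + Real.sqrt (q 1 - q 0) * ω 0) (Fin.tail ω) p := by
  simp [partFrom, Fin.sum_univ_succ, Fin.tail, add_assoc]
  refine Finset.sum_congr rfl fun i _ => if_congr ?_ rfl rfl
  simp only [Fin.le_def, Fin.val_succ]
  omega

lemma partFrom_prefix {r : ℕ} (q : Fin (r + 1) → ℝ) (x : ℝ) (p : Fin (r + 1)) (ω ω' : Fin r → ℝ)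
    (h : ∀ i : Fin r, i.val < p.val → ω i = ω' i) : partFrom q x ω p = partFrom q x ω' p := by
  simp only [partFrom]
  congr 1
  refine Finset.sum_congr rfl fun i _ => ?_
  split
  · rename_i hi; rw [h i hi]
  · rfl

lemma partFrom_last {r : ℕ} (q : Fin (r + 1) → ℝ) (x : ℝ) (ω : Fin r → ℝ) :
    partFrom q x ω (Fin.last r) = fieldFrom q x ω := by
  simp [partFrom, fieldFrom]

lemma continuous_fieldFrom {r : ℕ} (q : Fin (r + 1) → ℝ) (x : ℝ) :
    Continuous (fieldFrom q x) := by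
  unfold fieldFrom; fun_prop

lemma measurable_partFrom {r : ℕ} (q : Fin (r + 1) → ℝ) (x : ℝ) (p : Fin (r + 1)) :
    Measurable fun ω => partFrom q x ω p := by
  unfold partFrom
  refine measurable_const.add (Finset.measurable_sum _ fun i _ => ?_)
  split
  · exact (measurable_pi_apply i).const_mul _
  · exact measurable_const

lemma level_cons_zero {r : ℕ} (m : Fin (r + 1) → ℝ) (q : Fin (r + 2) → ℝ) (φ : ℝ → ℝ) :
    level m q φ 0 = layer (m 0) (q 1 - q 0) (level (Fin.tail m) (Fin.tail q) φ 0) := rfl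

lemma level_cons_succ {r : ℕ} (m : Fin (r + 1) → ℝ) (q : Fin (r + 2) → ℝ) (φ : ℝ → ℝ)
    (p : Fin (r + 1)) : level m q φ p.succ = level (Fin.tail m) (Fin.tail q) φ p := rfl

lemma up_cons_zero {r : ℕ} (m : Fin (r + 1) → ℝ) (q : Fin (r + 2) → ℝ) (φ h : ℝ → ℝ) :
    up m q φ 0 h = tilt (m 0) (q 1 - q 0) (level (Fin.tail m) (Fin.tail q) φ 0)
      (up (Fin.tail m) (Fin.tail q) φ 0 h) := rfl

lemma up_cons_succ {r : ℕ} (m : Fin (r + 1) → ℝ) (q : Fin (r + 2) → ℝ) (φ h : ℝ → ℝ)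
    (p : Fin (r + 1)) : up m q φ p.succ h = up (Fin.tail m) (Fin.tail q) φ p h := rfl

lemma down_cons_zero {r : ℕ} (m : Fin (r + 1) → ℝ) (q : Fin (r + 2) → ℝ) (φ h : ℝ → ℝ) :
    down m q φ 0 h = h := rfl

lemma down_cons_succ {r : ℕ} (m : Fin (r + 1) → ℝ) (q : Fin (r + 2) → ℝ) (φ h : ℝ → ℝ)
    (p : Fin (r + 1)) : down m q φ p.succ h =
      tilt (m 0) (q 1 - q 0) (level (Fin.tail m) (Fin.tail q) φ 0)
        (down (Fin.tail m) (Fin.tail q) φ p h) := rfl

lemma cb_level {C : ℝ} {φ : ℝ → ℝ} (hφ : CB C φ) : ∀ {r : ℕ} {m : Fin r → ℝ},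
    (∀ i, 0 < m i) → ∀ (q : Fin (r + 1) → ℝ) (p : Fin (r + 1)), CB C (level m q φ p) := by
  intro r
  induction r with
  | zero => exact fun _ _ _ => hφ
  | succ r ih =>
    intro m hm q p
    cases p using Fin.cases with
    | zero => exact cb_layer (hm 0) (ih (fun i => hm i.succ) _ 0)
    | succ p => exact ih (fun i => hm i.succ) _ p

lemma cb_up {C D : ℝ} {φ h : ℝ → ℝ} (hφ : CB C φ) (hh : CB D h) : ∀ {r : ℕ} {m : Fin r → ℝ},
    (∀ i, 0 < m i) → ∀ (q : Fin (r + 1) → ℝ) (p : Fin (r + 1)), CB D (up m q φ p h) := by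
  intro r
  induction r with
  | zero => exact fun _ _ _ => hh
  | succ r ih =>
    intro m hm q p
    cases p using Fin.cases with
    | zero => exact cb_tilt (hm 0) (cb_level hφ (fun i => hm i.succ) _ 0) (ih (fun i => hm i.succ) _ 0)
    | succ p => exact ih (fun i => hm i.succ) _ p

lemma cb_down {C D : ℝ} {φ : ℝ → ℝ} (hφ : CB C φ) : ∀ {r : ℕ} {m : Fin r → ℝ},
    (∀ i, 0 < m i) → ∀ (q : Fin (r + 1) → ℝ) (p : Fin (r + 1)) {h : ℝ → ℝ}, CB D h →
      CB D (down m q φ p h) := by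
  intro r
  induction r with
  | zero => exact fun _ _ _ _ hh => hh
  | succ r ih =>
    intro m hm q p h hh
    cases p using Fin.cases with
    | zero => exact hh
    | succ p =>
      exact cb_tilt (hm 0) (cb_level hφ (fun i => hm i.succ) _ 0) (ih (fun i => hm i.succ) _ p hh)

/-- The weight of a leaf. -/
def pathY {r : ℕ} (q : Fin (r + 1) → ℝ) (φ : ℝ → ℝ) (x : ℝ) (η : Fin r → ℝ) : ℝ :=
  Real.exp (φ (fieldFrom q x η))

lemma pathY_cons {r : ℕ} (q : Fin (r + 2) → ℝ) (φ : ℝ → ℝ) (x b : ℝ) (ω : Fin r → ℝ) :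
    pathY q φ x (Fin.cons b ω) = pathY (Fin.tail q) φ (x + Real.sqrt (q 1 - q 0) * b) ω :=
  congrArg (fun t => Real.exp (φ t)) (fieldFrom_cons q x b ω)

lemma bdd_pathY {C : ℝ} {φ : ℝ → ℝ} (hφ : CB C φ) {r : ℕ} (q : Fin (r + 1) → ℝ) (x : ℝ) :
    Bdd (Real.exp C) (pathY q φ x) := by
  refine ⟨Real.exp_pos C, ((hφ.cont.comp (continuous_fieldFrom q x)).rexp).measurable, fun η => ?_⟩
  have h := abs_le.1 (hφ.bound (fieldFrom q x η))
  rw [← Real.exp_neg]
  exact ⟨Real.exp_le_exp.2 h.1, Real.exp_le_exp.2 h.2⟩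

lemma genNested_pathY {C : ℝ} {φ : ℝ → ℝ} (hφ : CB C φ) : ∀ {r : ℕ} {m : Fin r → ℝ},
    (∀ i, 0 < m i) → ∀ (q : Fin (r + 1) → ℝ) (x : ℝ),
      genNested (gaussianReal 0 1) m (pathY q φ x) = Real.exp (level m q φ 0 x) := by
  intro r
  induction r with
  | zero => intro m _ q x; simp [genNested, pathY, fieldFrom, level]
  | succ r ih =>
    intro m hm q x
    have hL := cb_level hφ (fun i => hm i.succ) (Fin.tail q) 0 (m := Fin.tail m)
    show (∫ b, (genNested _ _ fun ω => pathY q φ x (Fin.cons b ω)) ^ m 0 ∂gaussianReal 0 1) ^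
      (1 / m 0) = _
    simp only [pathY_cons, fun b => ih (m := Fin.tail m) (fun i => hm i.succ) (Fin.tail q)
      (x + Real.sqrt (q 1 - q 0) * b), level_cons_zero, layer_eq, ← Real.exp_mul,
      mul_comm _ (m 0)]
    simp only [wgt]
    rw [Real.rpow_def_of_pos, mul_comm]
    exact integral_wgt_pos (δ := q 1 - q 0) (hm 0).le hL x

lemma logD_pathY {C : ℝ} {φ ψ : ℝ → ℝ} (hφ : CB C φ) : ∀ {r : ℕ} {m : Fin r → ℝ},
    (∀ i, 0 < m i) → ∀ (q : Fin (r + 1) → ℝ) (x : ℝ),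
      logD (gaussianReal 0 1) m (pathY q φ x)
        (fun η => pathY q φ x η * ψ (fieldFrom q x η)) = up m q φ 0 ψ x := by
  intro r
  induction r with
  | zero =>
    intro m _ q x
    refine (mul_div_cancel_left₀ _ (Real.exp_pos _).ne').trans ?_
    simp [fieldFrom, up]
  | succ r ih =>
    intro m hm q x
    simp only [logD, pathY_cons, fieldFrom_cons, ih (m := Fin.tail m) (fun i => hm i.succ),
      genNested_pathY hφ (m := Fin.tail m) (fun i => hm i.succ), ← Real.exp_mul,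
      up_cons_zero, tilt_eq, wgt, mul_comm _ (m 0)]

/-- The mean of a function of the field at depth `p`. -/
lemma logD_partFrom {C : ℝ} {φ : ℝ → ℝ} (hφ : CB C φ) (Φ : ℝ → ℝ) : ∀ {r : ℕ} {m : Fin r → ℝ},
    Exps m → ∀ (q : Fin (r + 1) → ℝ) (p : Fin (r + 1)) (x : ℝ),
      logD (gaussianReal 0 1) m (pathY q φ x)
        (fun η => pathY q φ x η * Φ (partFrom q x η p)) = down m q φ p Φ x := by
  intro r
  induction r with
  | zero =>
    intro m _ q p x
    refine (mul_div_cancel_left₀ _ (Real.exp_pos _).ne').trans ?_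
    simp [partFrom, down]
  | succ r ih =>
    intro m hm q p x
    cases p using Fin.cases with
    | zero =>
      simp only [partFrom_zero, down_cons_zero]
      exact logD_self _ hm (bdd_pathY hφ q x) _
    | succ p =>
      simp only [logD, pathY_cons, partFrom_succ, Fin.cons_zero, Fin.tail_cons,
        ih hm.tail, genNested_pathY hφ (m := Fin.tail m) (fun i => hm.pos i.succ),
        ← Real.exp_mul, down_cons_succ, tilt_eq, wgt, mul_comm _ (m 0)]

lemma cond_pathY {C : ℝ} {φ : ℝ → ℝ} (hφ : CB C φ) : ∀ {r : ℕ} {m : Fin r → ℝ},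
    (∀ i, 0 < m i) → ∀ (q : Fin (r + 1) → ℝ) (x : ℝ) (p : Fin (r + 1)) (ω : Fin r → ℝ),
      cond (gaussianReal 0 1) m (pathY q φ x) p.val ω =
        Real.exp (level m q φ p (partFrom q x ω p)) := by
  intro r
  induction r with
  | zero =>
    intro m hm q x p ω
    obtain rfl : p = 0 := Fin.ext (Nat.lt_one_iff.1 p.isLt)
    rw [partFrom_zero, Fin.val_zero, cond_zero, genNested_pathY hφ hm]
  | succ r ih =>
    intro m hm q x p ω
    cases p using Fin.cases with
    | zero => rw [partFrom_zero, Fin.val_zero, cond_zero, genNested_pathY hφ hm]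
    | succ p =>
      rw [Fin.val_succ, level_cons_succ, partFrom_succ,
        ← ih (m := Fin.tail m) (fun i => hm i.succ) (Fin.tail q) _ p (Fin.tail ω)]
      show cond _ _ (fun η => pathY q φ x (Fin.cons (ω 0) η)) _ _ = _
      simp only [pathY_cons]

lemma cexp_pathY {C : ℝ} {φ ψ : ℝ → ℝ} (hφ : CB C φ) : ∀ {r : ℕ} {m : Fin r → ℝ},
    (∀ i, 0 < m i) → ∀ (q : Fin (r + 1) → ℝ) (x : ℝ) (p : Fin (r + 1)) (ω : Fin r → ℝ),
      cexp (gaussianReal 0 1) m (pathY q φ x) (fun η => ψ (fieldFrom q x η)) p.val ω =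
        up m q φ p ψ (partFrom q x ω p) := by
  intro r
  induction r with
  | zero =>
    intro m hm q x p ω
    obtain rfl : p = 0 := Fin.ext (Nat.lt_one_iff.1 p.isLt)
    rw [partFrom_zero, Fin.val_zero, cexp_zero, logD_pathY hφ hm]
  | succ r ih =>
    intro m hm q x p ω
    cases p using Fin.cases with
    | zero => rw [partFrom_zero, Fin.val_zero, cexp_zero, logD_pathY hφ hm]
    | succ p =>
      rw [Fin.val_succ, up_cons_succ, partFrom_succ,
        ← ih (m := Fin.tail m) (fun i => hm i.succ) (Fin.tail q) _ p (Fin.tail ω)]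
      show condD _ _ (fun η => pathY q φ x (Fin.cons (ω 0) η))
        (fun η => pathY q φ x (Fin.cons (ω 0) η) * ψ (fieldFrom q x (Fin.cons (ω 0) η))) _ _ = _
      simp only [pathY_cons, fieldFrom_cons]
      rfl

theorem bridge : BridgeStmt := by
  intro r m q hP φ ψ C hφc hψc hφb hψb g₀ ω
  have hφ : CB C φ := ⟨hφc, hφb⟩
  exact ⟨genNested_pathY hφ hP.pos q _, fun p =>
    ⟨cond_pathY hφ hP.pos q _ p ω, cexp_pathY hφ hP.pos q _ p ω⟩⟩

end Vale.Agent.P157.Parisi

end
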