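import Vale.Agent.P157.Parisi.ModA.Bridge

/-!
The conjugate path: derivatives of the recursion, monotonicity and bounds.
-/

noncomputable section

set_option linter.unusedVariables false

open MeasureTheory ProbabilityTheory Filter Topology

namespace Vale.Agent.P157.Parisi

lemma level_castSucc {φ : ℝ → ℝ} : ∀ {r : ℕ} (m : Fin r → ℝ) (q : Fin (r + 1) → ℝ) (p : Fin r),
    level m q φ p.castSucc = layer (m p) (q p.succ - q p.castSucc) (level m q φ p.succ) := by
  intro r
  induction r with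
  | zero => exact fun _ _ p => p.elim0
  | succ r ih =>
    intro m q p
    cases p using Fin.cases with
    | zero => rfl
    | succ p => rw [← Fin.succ_castSucc, level_cons_succ, level_cons_succ, ih]; rfl

lemma up_castSucc {φ h : ℝ → ℝ} : ∀ {r : ℕ} (m : Fin r → ℝ) (q : Fin (r + 1) → ℝ) (p : Fin r),
    up m q φ p.castSucc h =
      tilt (m p) (q p.succ - q p.castSucc) (level m q φ p.succ) (up m q φ p.succ h) := by
  intro r
  induction r with
  | zero => exact fun _ _ p => p.elim0
  | succ r ih =>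
    intro m q p
    cases p using Fin.cases with
    | zero => rfl
    | succ p => rw [← Fin.succ_castSucc, up_cons_succ, up_cons_succ, level_cons_succ, ih]; rfl

lemma up_last {φ h : ℝ → ℝ} : ∀ {r : ℕ} (m : Fin r → ℝ) (q : Fin (r + 1) → ℝ),
    up m q φ (Fin.last r) h = h := by
  intro r
  induction r with
  | zero => exact fun _ _ => rfl
  | succ r ih => exact fun m q => by rw [← Fin.succ_last, up_cons_succ, ih]

lemma down_zero {φ h : ℝ → ℝ} : ∀ {r : ℕ} (m : Fin r → ℝ) (q : Fin (r + 1) → ℝ),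
    down m q φ 0 h = h
  | 0, _, _ => rfl
  | _ + 1, _, _ => rfl

lemma down_succ {φ : ℝ → ℝ} : ∀ {r : ℕ} (m : Fin r → ℝ) (q : Fin (r + 1) → ℝ) (p : Fin r)
    (h : ℝ → ℝ), down m q φ p.succ h =
      down m q φ p.castSucc (tilt (m p) (q p.succ - q p.castSucc) (level m q φ p.succ) h) := by
  intro r
  induction r with
  | zero => exact fun _ _ p => p.elim0
  | succ r ih =>
    intro m q p h
    cases p using Fin.cases with
    | zero => rw [Fin.castSucc_zero, down_cons_zero, down_cons_succ, down_zero]; rfl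
    | succ p =>
      rw [← Fin.succ_castSucc, down_cons_succ, down_cons_succ, ih, level_cons_succ]
      rfl

lemma down_mono {C D D' : ℝ} {φ : ℝ → ℝ} (hφ : CB C φ) : ∀ {r : ℕ} {m : Fin r → ℝ},
    (∀ i, 0 < m i) → ∀ (q : Fin (r + 1) → ℝ) (p : Fin (r + 1)) {h h' : ℝ → ℝ}, CB D h → CB D' h' →
      (∀ x, h x ≤ h' x) → ∀ x, down m q φ p h x ≤ down m q φ p h' x := by
  intro r
  induction r with
  | zero => exact fun _ _ _ _ _ _ _ hle => hle
  | succ r ih =>
    intro m hm q p h h' hh hh' hle x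
    cases p using Fin.cases with
    | zero => exact hle x
    | succ p =>
      exact tilt_mono (hm 0).le (cb_level hφ (fun i => hm i.succ) _ 0)
        (cb_down hφ (fun i => hm i.succ) _ p hh) (cb_down hφ (fun i => hm i.succ) _ p hh')
        (ih (fun i => hm i.succ) _ p hh hh' hle) x

/-- Derivatives propagate by `up`. -/
lemma hasDerivAt_level {C D : ℝ} {φ ψ : ℝ → ℝ} (hφ : CB C φ) (hψ : CB D ψ)
    (hd : ∀ y, HasDerivAt φ (ψ y) y) : ∀ {r : ℕ} {m : Fin r → ℝ}, (∀ i, 0 < m i) →
    ∀ (q : Fin (r + 1) → ℝ) (p : Fin (r + 1)) (x : ℝ),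
      HasDerivAt (level m q φ p) (up m q φ p ψ x) x := by
  intro r
  induction r with
  | zero => exact fun _ _ _ x => hd x
  | succ r ih =>
    intro m hm q p x
    cases p using Fin.cases with
    | zero =>
      exact hasDerivAt_layer (hm 0) (cb_level hφ (fun i => hm i.succ) _ 0)
        (cb_up hφ hψ (fun i => hm i.succ) _ 0) (ih (fun i => hm i.succ) _ 0) x
    | succ p => exact ih (fun i => hm i.succ) _ p x

variable {f : ℝ → ℝ} {A : ℝ}

lemma Smooth.cb (hf : Smooth f A) : CB A f := ⟨hf.d0.continuous, hf.b0⟩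

lemma Smooth.cb1 (hf : Smooth f A) : CB A (deriv f) := ⟨hf.d1.continuous, hf.b1⟩

lemma Smooth.cb11 (hf : Smooth f A) : CB (A ^ 2) fun z => deriv f z * deriv f z :=
  ⟨hf.cb1.cont.mul hf.cb1.cont, fun z => by
    rw [abs_mul, sq]
    exact mul_le_mul (hf.b1 z) (hf.b1 z) (abs_nonneg _) hf.cb1.nonneg⟩

lemma Smooth.cb_top (hf : Smooth f A) (δ : ℝ) : CB A (topMean f δ) := by
  rw [topMean_eq]; exact cb_layer one_pos hf.cb

lemma cb_bar {C D : ℝ} {h : ℝ → ℝ} (hf : CB C f) (hh : CB D h) (δ : ℝ) : CB D (bar f δ h) := by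
  rw [bar_eq]; exact cb_tilt one_pos hf hh

lemma Smooth.hasDerivAt_top (hf : Smooth f A) (δ x : ℝ) :
    HasDerivAt (topMean f δ) (bar f δ (deriv f) x) x := by
  rw [topMean_eq, bar_eq]
  exact hasDerivAt_layer one_pos hf.cb hf.cb1 (fun y => (hf.d0 y).hasDerivAt) x

lemma CB.integrable_scaled {C : ℝ} {h : ℝ → ℝ} (hh : CB C h) (c : ℝ) :
    Integrable (fun g => h (c * g)) (gaussianReal 0 1) :=
  CB.integrable ⟨hh.cont.comp (continuous_const.mul continuous_id), fun g => hh.bound _⟩ _

theorem slope_spec : SlopeStmt := by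
  intro f A hf ξ
  obtain ⟨r, m, q, hP⟩ := ξ
  have hm := hP.pos
  set δ := 1 - q (Fin.last r) with hδ
  set φ := topMean f δ with hφdef
  have hφ : CB A φ := hf.cb_top δ
  set ψ := bar f δ (deriv f) with hψdef
  have hψ : CB A ψ := cb_bar hf.cb hf.cb1 δ
  have hder : ∀ p, deriv (level m q φ p) = up m q φ p ψ := fun p => funext fun x =>
    (hasDerivAt_level hφ hψ (fun y => hf.hasDerivAt_top δ y) hm q p x).deriv
  have hU : ∀ p, CB A (up m q φ p ψ) := cb_up hφ hψ hm q
  have hU2 : ∀ p, CB (A ^ 2) fun x => up m q φ p ψ x ^ 2 := fun p => ⟨(hU p).cont.pow 2,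
    fun x => by rw [abs_pow]; exact pow_le_pow_left₀ (abs_nonneg _) ((hU p).bound x) 2⟩
  have hslope : ∀ p, slope f m q p = ∫ g, down m q φ p (fun x => up m q φ p ψ x ^ 2)
      (Real.sqrt (q 0) * g) ∂gaussianReal 0 1 := fun p => by
    simp only [slope, ← hδ, ← hφdef, hder]
  have hcb : ∀ p {h : ℝ → ℝ}, CB (A ^ 2) h →
      Integrable (fun g => down m q φ p h (Real.sqrt (q 0) * g)) (gaussianReal 0 1) :=
    fun p h hh => (cb_down hφ hm q p hh).integrable_scaled _
  have hsq := hf.cb11
  have hbar : CB (A ^ 2) (bar f δ fun z => deriv f z * deriv f z) := cb_bar hf.cb hsq δ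
  have hmono : Monotone (slope f m q) := Fin.monotone_iff_le_succ.2 fun p => by
    rw [hslope, hslope]
    refine integral_mono (hcb _ (hU2 _)) (hcb _ (hU2 _)) fun g => ?_
    simp only [down_succ m q p]
    refine down_mono hφ hm q _ (hU2 _)
      (cb_tilt (hm p) (cb_level hφ hm q p.succ) (hU2 p.succ)) (fun x => ?_) _
    simp only [up_castSucc m q p]
    exact sq_tilt_le (hm p).le (cb_level hφ hm q p.succ) (hU p.succ) x
  refine ⟨hmono, fun p => ⟨?_, ?_, ?_, ?_⟩⟩
  · rw [hslope]
    refine integral_nonneg fun g => ?_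
    have h0 : CB (A ^ 2) fun _ : ℝ => (0 : ℝ) := ⟨continuous_const, fun _ => by
      simp [sq_nonneg]⟩
    have hz : ∀ x, down m q φ p (fun _ => 0) x = 0 := by
      intro x
      have := (cb_down hφ hm q p (D := 0) (h := fun _ => (0 : ℝ))
        ⟨continuous_const, fun _ => by simp⟩).bound x
      exact abs_nonpos_iff.1 this
    rw [Pi.zero_apply, ← hz (Real.sqrt (q 0) * g)]
    exact down_mono hφ hm q p h0 (hU2 p) (fun x => sq_nonneg _) _
  · rw [hslope]
    simp only [sq]
    rfl
  · have hlast : slope f m q (Fin.last r) ≤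
        ∫ g, down m q φ (Fin.last r) (bar f δ fun z => deriv f z * deriv f z)
          (Real.sqrt (q 0) * g) ∂gaussianReal 0 1 := by
      rw [hslope]
      refine integral_mono (hcb _ (hU2 _)) (hcb _ hbar) fun g =>
        down_mono hφ hm q _ (hU2 _) hbar (fun x => ?_) _
      simp only [up_last, hψdef, bar_eq]
      refine (sq_tilt_le zero_le_one hf.cb hf.cb1 x).trans_eq ?_
      simp only [sq]
    refine le_trans ?_ hlast
    exact hmono (Fin.le_last p)
  · have h := fun g : ℝ => (cb_down hφ hm q (Fin.last r) hbar).bound (Real.sqrt (q 0) * g)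
    refine (integral_mono (hcb _ hbar) (integrable_const (A ^ 2))
      fun g => (le_abs_self _).trans (h g)).trans ?_
    simp

end Vale.Agent.P157.Parisi

end
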